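import Vale.Agent.P299.H223.Top0
import Vale.Agent.P299.H223.Hom
import Vale.Agent.P299.H598.PartI
import Vale.Agent.P299G40.Main
import Vale.Agent.P299G1.Alg
import Vale.Agent.P299G11.Frm
import Vale.Agent.P299G50.Conn
import Vale.Agent.P299G50.Hol
import Vale.Agent.P299G40.Irr

/-!
# P299, Q1 : anticanonical nonvanishing for smooth projective varieties
-/

open scoped Manifold ContDiff
open Vale.Agent.P272.K Vale.Agent.P299.Final Vale.Agent.P299G40

/-- **Q1 of P299.** Let `Z` be a smooth connected projective variety. It is irreducible, of some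
dimension `n`, and a compact complex manifold `X`; every such `X` is connected, the holomorphic
sections of `-mK_X` are the algebraic sections of `-mK_Z`, and if `-K_X` has a smooth Hermitian
metric with semipositive curvature then `H^0(Z, -mK_Z) ≠ 0` for some `m > 0`. -/
theorem Vale.Agent.Results.P299.AAlgebraicSections.result (N : ℕ) (Z : Set (PN N))
    (hZ : IsSmoothConnected Z) : ∃ n : ℕ, IsSmoothVariety n Z ∧
    (∃ (X : Type) (_ : TopologicalSpace X) (_ : T2Space X) (_ : CompactSpace X)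
      (_ : ChartedSpace (Cm n) X) (_ : IsManifold 𝓘(ℂ, Cm n) ω X) (Φ : X → PN N),
      IsAnalytification n Z Φ) ∧
    ∀ (X : Type) [TopologicalSpace X] [T2Space X] [CompactSpace X] [ChartedSpace (Cm n) X]
      [IsManifold 𝓘(ℂ, Cm n) ω X] (Φ : X → PN N), IsAnalytification n Z Φ →
      ConnectedSpace X ∧
      (∀ (m : ℕ) (s : Chart n X → Cm n → ℂ), IsAnticanonicalSection m s →
        ∃ g, IsRegularSection Z m g ∧ Represents Z Φ m s g) ∧
      (∀ (m : ℕ) (g : Fin (N + 1) → (Fin n → Fin (N + 1)) → PN N → ℂ), IsRegularSection Z m g →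
        ∃ s : Chart n X → Cm n → ℂ, IsAnticanonicalSection m s ∧ Represents Z Φ m s g) ∧
      ((∃ φ : Chart n X → Cm n → ℝ, IsAnticanonicalMetric φ ∧ IsSemipositive φ) →
        ∃ m : ℕ, 0 < m ∧ ∃ g : Fin (N + 1) → (Fin n → Fin (N + 1)) → PN N → ℂ,
          IsRegularSection Z m g ∧ ∃ i J, ∃ z ∈ dom Z i J, g i J z ≠ 0) := by
  obtain ⟨n, hZ⟩ := (conn_iff Z).1 hZ
  refine ⟨n, hZ, Vale.Agent.P299G85.exi n N Z hZ, fun X _ _ _ _ _ Φ h => ?_⟩
  have := Vale.Agent.P299G50.conn n N Z X Φ hZ.irr h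
  have a := Vale.Agent.P299G1.alg gaga Vale.Agent.P299G11.frm n N Z X Φ hZ h
  refine ⟨inferInstance, a, Vale.Agent.P299G50.hol Vale.Agent.P299G11.frm n N Z X Φ hZ h,
    fun hφ => ?_⟩
  obtain ⟨m, hm, s, s1, s2⟩ := Vale.Agent.P299.H223.nonvanishing_of
    Vale.Agent.P299.PartI.tensorStatement (Vale.Agent.P299.H223.partII_of
      fun _ _ _ _ _ _ _ _ D _ _ _ _ _ _ => Vale.Agent.P299.H223.homProp D) n X (proj hZ h) hφ
  obtain ⟨g, g1, g2⟩ := a m s s1
  exact ⟨m, hm, g, g1, nonzero Vale.Agent.P299G11.frm hZ h s2 g2⟩
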